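import Vale.Agent.P011.H339.N1b
import Vale.Agent.P011.H748.N4Alg

/-!
**Approximation by the parametrisation, along a filter**, in the homogeneous form
`u β^* β⁻¹`, `β = T (z ξ^#) + T (z ξ) ξ`.
-/

open Module Filter Topology

set_option linter.unusedSectionVars false
set_option linter.unusedVariables false

namespace Vale.Agent.P011.H339

open Vale.Agent.P011.H182 Vale.Agent.P011.H775 Vale.Agent.P011.H948 Vale.Agent.P011.H748

/-- Four elements of norm one. -/
theorem exists_mu4 {k K : Type} [Field k] [Infinite k] [Field K] [StarRing K] [Algebra k K]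
    (h2 : (2 : K) ≠ 0) {s : K} (hs : star s = -s) (hs0 : s ≠ 0)
    (hkk : ∀ c : k, star (algebraMap k K c) = algebraMap k K c) :
    ∃ μ : Fin 4 → K, Function.Injective μ ∧ ∀ i, μ i * star (μ i) = 1 := by
  have hne : ∀ c : k, algebraMap k K c - s ≠ 0 ∧ algebraMap k K c + s ≠ 0 := by
    intro c
    constructor
    · intro h
      have h3 := congrArg star (sub_eq_zero.mp h)
      rw [hkk, hs, sub_eq_zero.mp h] at h3
      have h4 : 2 * s = 0 := by linear_combination h3
      exact (mul_ne_zero h2 hs0) h4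
    · intro h
      have h3 := congrArg star (eq_neg_of_add_eq_zero_left h)
      rw [hkk, star_neg, hs, neg_neg, eq_neg_of_add_eq_zero_left h] at h3
      have h4 : 2 * s = 0 := by linear_combination -h3
      exact (mul_ne_zero h2 hs0) h4
  let t : Fin 4 → k := fun i => Infinite.natEmbedding k (i : ℕ)
  have ht : Function.Injective t := fun i j h =>
    Fin.ext ((Infinite.natEmbedding k).injective h)
  refine ⟨fun i => (algebraMap k K (t i) + s) / (algebraMap k K (t i) - s), ?_, ?_⟩
  · intro i j h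
    dsimp only at h
    rw [div_eq_div_iff (hne _).1 (hne _).1] at h
    apply ht
    apply (algebraMap k K).injective
    have h3 : (2 * s) * (algebraMap k K (t i) - algebraMap k K (t j)) = 0 := by
      linear_combination -h
    exact sub_eq_zero.mp ((mul_eq_zero.mp h3).resolve_left (mul_ne_zero h2 hs0))
  · intro i
    dsimp only
    rw [star_div₀, star_add, star_sub, hkk, hs, sub_neg_eq_add, ← sub_eq_add_neg]
    have h3 := (hne (t i)).1
    have h4 := (hne (t i)).2
    field_simp

variable {k K D : Type} [Field k] [Field K] [StarRing K] [DivisionRing D] [StarRing D]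
  [Algebra k K] [Algebra k D] [Algebra K D] [IsScalarTower k K D]
  {N : ℕ} {B : Basis (Fin N) k D} {a : AbsoluteValue k ℝ} (C : Cub K D)

theorem be_eq {z ξ : D} (h : C.T (z * ξ) ≠ 0) :
    be C z ξ = C.T (z * ξ) • (ξ + lam C z ξ • (1 : D)) := by
  rw [be, smul_add, smul_smul, lam, mul_div_cancel₀ _ h, add_comm]

theorem be_pt (hsm : ∀ (c : K) (x : D), star (c • x) = star c • star x) {z ξ : D}
    (h : C.T (z * ξ) ≠ 0) (hξ : star ξ = ξ) :
    star (be C z ξ) * (be C z ξ)⁻¹ =
      ((star (C.T (z * ξ)) • (1 : D)) * (C.T (z * ξ) • (1 : D))⁻¹) * Vp C z ξ := by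
  have e : (C.T (z * ξ) • (ξ + lam C z ξ • (1 : D)))⁻¹ =
      (C.T (z * ξ))⁻¹ • (ξ + lam C z ξ • (1 : D))⁻¹ := by
    rw [← smul_one_mul, mul_inv_rev, inv_sm1, mul_smul_comm, mul_one]
  rw [be_eq C h, e, hsm, star_add, hξ, hsm, star_one, Vp, inv_sm1, smm, smul_one_mul,
    smul_mul_smul_comm]

/-- **Approximation of local points by the parametrisation, along a filter.** -/
theorem n1_seq (h2 : (2 : K) ≠ 0) (hk : ∀ (c : k) (x : D), star (c • x) = c • star x)
    (hsm : ∀ (c : K) (x : D), star (c • x) = star c • star x)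
    (hN : ∀ x, C.N (star x) = star (C.N x)) {s : K} (hs : star s = -s) (hs0 : s ≠ 0)
    (hfix : ∀ c : K, star c = c → ∃ e : k, algebraMap k K e = c)
    {μ : Fin 4 → K} (hμ : Function.Injective μ) (hμ1 : ∀ i, μ i * star (μ i) = 1)
    {x u : D} (hu : u * star u = 1) (hT : C.T ((x - 1) * u) = 0) {X : Type} {F : Filter X}
    {w n : X → D} (hw : Bd B a F w) (hn : Bd B a F n)
    (hww : AE B a F (fun j => star (w j) * w j) fun _ => 1)
    (hTw : Nu B a F fun j => C.T ((x - 1) * w j) • (1 : D))
    (hn1 : AE B a F (fun j => (C.T (w j * (x - 1) * w j * u⁻¹) • (1 : D)) * n j) fun _ => 1) :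
    ∃ (m : X → K) (ξ : X → D), (∀ j, m j * star (m j) = 1) ∧
      Bd B a F (fun j => m j • (1 : D)) ∧ (∀ j, star (ξ j) = ξ j) ∧
      (∀ᶠ j in F, be C ((x - 1) * u) (ξ j) ≠ 0) ∧
      AE B a F (fun j => u * star (be C ((x - 1) * u) (ξ j)) * (be C ((x - 1) * u) (ξ j))⁻¹)
        fun j => m j • w j := by
  obtain ⟨z, hz⟩ : ∃ z, z = (x - 1) * u := ⟨_, rfl⟩
  rw [← hz] at hT ⊢
  have huu : u⁻¹ = star u := inv_eq_of_mul_eq_one_right hu
  obtain ⟨C1, hC1, hm⟩ := na_mul B a
  obtain ⟨R, hR⟩ := id hw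
  obtain ⟨ε, hε, hmu⟩ := exists_mu B a C h2 hk hsm hN hs hs0 hfix hμ hμ1
    (C1 * na B a (star u) * R)
  have hvw : ∀ j, star (star u * w j) * (star u * w j) = star (w j) * w j := by
    intro j
    rw [star_mul, star_star, mul_assoc, ← mul_assoc u, hu, one_mul]
  have hex : ∀ j : X, ∃ i, ∃ y : D, (na B a (w j) ≤ R ∧ na B a (star (w j) * w j - 1) < ε) →
      ((μ i • (star u * w j) - 1) * y = 1 ∧ na B a y ≤ 1 / ε) := by
    intro j
    by_cases hj : na B a (w j) ≤ R ∧ na B a (star (w j) * w j - 1) < ε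
    · obtain ⟨i, y, h3, h4⟩ := hmu (star u * w j) ((hm _ _).trans
        (mul_le_mul_of_nonneg_left hj.1 (mul_nonneg (by linarith) (na_nonneg _ _ _))))
        (by rw [hvw]; exact hj.2)
      exact ⟨i, y, fun _ => ⟨h3, h4⟩⟩
    · exact ⟨0, 0, fun h => absurd h hj⟩
  choose i y hiy using hex
  have hev : ∀ᶠ j in F, na B a (w j) ≤ R ∧ na B a (star (w j) * w j - 1) < ε :=
    hR.and (hww ε hε)
  have by' : Bd B a F y := ⟨1 / ε, by filter_upwards [hev] with j hj; exact (hiy j hj).2⟩
  have bμ : Bd B a F fun j => μ (i j) • (1 : D) := Bd.of_le fun j =>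
    Finset.single_le_sum (f := fun i => na B a (μ i • (1 : D))) (fun _ _ => na_nonneg _ _ _)
      (Finset.mem_univ (i j))
  have bμs : Bd B a F fun j => star (μ (i j)) • (1 : D) := by
    refine (bμ.st hk).congr (Eventually.of_forall fun j => ?_)
    rw [hsm, star_one]
  obtain ⟨v, hvdef⟩ : ∃ v : X → D, v = fun j => μ (i j) • (star u * w j) := ⟨_, rfl⟩
  have bv : Bd B a F v := by
    rw [hvdef]
    refine (bμ.mul ((Bd.const (star u)).mul hw)).congr (Eventually.of_forall fun j => ?_)
    rw [smul_one_mul]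
  have hvv : AE B a F (fun j => star (v j) * v j) fun _ => 1 := by
    refine hww.congr_left (Eventually.of_forall fun j => ?_)
    rw [hvdef]
    dsimp only
    rw [hsm, smul_mul_smul_comm, mul_comm (star (μ (i j))), hμ1, one_smul, hvw]
  have hvy : ∀ᶠ j in F, (v j - 1) * y j = 1 := by
    filter_upwards [hev] with j hj
    rw [hvdef]
    exact (hiy j hj).1
  have hTv : Nu B a F fun j => C.T (z * v j) • (1 : D) := by
    refine (Nu.bd_mul bμ hTw).congr (Eventually.of_forall fun j => ?_)
    rw [hvdef, smm]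
    dsimp only
    rw [mul_smul_comm, map_smul, smul_eq_mul, hz]
    congr 3
    rw [mul_assoc, ← mul_assoc u, hu, one_mul]
  have bn' : Bd B a F fun j => (star (μ (i j)) • (1 : D)) *
      ((star (μ (i j)) • (1 : D)) * n j) := bμs.mul (bμs.mul hn)
  have hn2 : AE B a F (fun j => (C.T (z * (v j * v j)) • (1 : D)) *
      ((star (μ (i j)) • (1 : D)) * ((star (μ (i j)) • (1 : D)) * n j))) fun _ => 1 := by
    refine hn1.congr_left (Eventually.of_forall fun j => ?_)
    have e1 : C.T (z * (v j * v j)) =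
        μ (i j) * (μ (i j) * C.T (w j * (x - 1) * w j * u⁻¹)) := by
      rw [hvdef, hz, huu]
      dsimp only
      rw [smul_mul_smul_comm, mul_smul_comm, map_smul, smul_eq_mul, mul_assoc (μ (i j))]
      congr 2
      have e2 : (x - 1) * u * (star u * w j * (star u * w j)) =
          (x - 1) * w j * star u * w j := by
        rw [mul_assoc (x - 1) u, ← mul_assoc u, ← mul_assoc u, hu, one_mul]
        simp only [mul_assoc]
      have e3 : w j * (x - 1) * w j * star u = w j * ((x - 1) * w j * star u) := by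
        simp only [mul_assoc]
      rw [e2, e3, C.T_comm (w j)]
    rw [e1, ← mul_assoc, smm, ← mul_assoc, smm]
    congr 2
    have h3 := hμ1 (i j)
    linear_combination (-(C.T (w j * (x - 1) * w j * u⁻¹)) *
      (μ (i j) * star (μ (i j)) + 1)) * h3
  obtain ⟨b, bb, hb1⟩ := exists_b2 C h2 hT bv hvy hTv bn' hn2
  -- the symmetric elements
  obtain ⟨ξ, hξdef⟩ : ∃ ξ : X → D, ξ = fun j => (2⁻¹ : K) • (((2 * s) • y j + s • (1 : D)) +
    star ((2 * s) • y j + s • (1 : D))) := ⟨_, rfl⟩
  have h2s : star (2 : K) = 2 := star_ofNat 2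
  have hξs : ∀ j, star (ξ j) = ξ j := by
    intro j
    rw [hξdef]
    dsimp only
    rw [hsm, star_inv₀, h2s, star_add, star_star, add_comm]
  have hξa : AE B a F ξ fun j => (2 * s) • y j + s • (1 : D) := by
    have q1 : Nu B a F fun j => star (y j) * (star (v j) * v j - 1) * y j :=
      Nu.mul_bd (Nu.bd_mul (by'.st hk) hvv) by'
    have q2 : Nu B a F fun j => (-s) • (star (y j) * (star (v j) * v j - 1) * y j) :=
      q1.sm _
    refine q2.congr ?_
    filter_upwards [hvy] with j hj
    have h3 : y j * (v j - 1) = 1 := (adj_of_inv C hj).2.2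
    have h4 : star (y j) * star (v j - 1) = 1 := by rw [← star_mul, hj, star_one]
    have h5 : star (v j) * v j - 1 = star (v j - 1) + (v j - 1) +
        star (v j - 1) * (v j - 1) := by
      rw [star_sub, star_one]
      noncomm_ring
    have h6 : star (y j) * (star (v j) * v j - 1) * y j = y j + star (y j) + 1 := by
      rw [h5, mul_add, mul_add, add_mul, add_mul, ← mul_assoc (star (y j)), h4, one_mul, one_mul,
        mul_assoc (star (y j)), hj, mul_one]
    rw [h6, hξdef]
    dsimp only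
    rw [star_add, hsm, hsm, star_mul', h2s, hs, star_one]
    apply smul_right_injective D h2
    dsimp only
    rw [smul_sub (2 : K) ((2⁻¹ : K) • _), smul_smul 2 (2⁻¹ : K), mul_inv_cancel₀ h2, one_smul]
    module
  obtain ⟨r1, r2, r3, r4⟩ := cay_asym C h2 hk hsm hs hs0 hT bv by' hvy hTv bb hb1 hξa
  -- the phase
  have hzξ : Bd B a F fun j => C.T (z * ξ j) • (1 : D) :=
    ((Bd.const z).mul (hξa.bd ((by'.sm _).add (Bd.const _)))).T C
  have hph : Bd B a F fun j => (star (C.T (z * ξ j)) • (1 : D)) *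
      (C.T (z * ξ j) • (1 : D))⁻¹ := by
    refine Bd.mul ?_ r4
    refine (hzξ.st hk).congr (Eventually.of_forall fun j => ?_)
    rw [hsm, star_one]
  classical
  obtain ⟨m, hmdef⟩ : ∃ m : X → K, m = fun j =>
      if C.T (z * ξ j) = 0 then 1 else star (C.T (z * ξ j)) / C.T (z * ξ j) * μ (i j) := ⟨_, rfl⟩
  have hmj : ∀ᶠ j in F, m j • (1 : D) = ((star (C.T (z * ξ j)) • (1 : D)) *
      (C.T (z * ξ j) • (1 : D))⁻¹) * (μ (i j) • (1 : D)) := by
    filter_upwards [r1] with j hj
    rw [hmdef]
    dsimp only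
    rw [if_neg hj, inv_sm1, smm, smm, div_eq_mul_inv]
  refine ⟨m, ξ, fun j => ?_, ?_, hξs, ?_, ?_⟩
  · rw [hmdef]
    dsimp only
    split_ifs with h0
    · rw [star_one, mul_one]
    · have h3 : star (C.T (z * ξ j)) ≠ 0 := fun h => h0 (star_eq_zero.mp h)
      rw [star_mul, star_div₀, star_star]
      have h4 := hμ1 (i j)
      field_simp
      exact h4
  · refine (hph.mul bμ).congr ?_
    filter_upwards [hmj] with j hj
    rw [hj]
  · filter_upwards [r1, r2] with j h3 h4
    rw [be_eq C h3]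
    exact smul_ne_zero h3 h4
  · have q := (AE.refl (B := B) (a := a) (F := F) fun j => (star (C.T (z * ξ j)) • (1 : D)) *
      (C.T (z * ξ j) • (1 : D))⁻¹).mul r3 hph bv
    have q2 := (AE.refl (B := B) (a := a) (F := F) fun _ => u).mul q (Bd.const u) (hph.mul bv)
    refine (q2.congr_left ?_).congr_right ?_
    · filter_upwards [r1] with j hj
      rw [← be_pt C hsm hj (hξs j), mul_assoc]
    · filter_upwards [hmj] with j hj
      rw [← smul_one_mul (m j), hj, hvdef]
      dsimp only
      rw [inv_sm1, smm, smm, smul_one_mul, smul_one_mul, smul_smul, mul_smul_comm, ← mul_assoc,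
        hu, one_mul]

end Vale.Agent.P011.H339
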