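import Vale.Agent.P011.H3.Step1
import Vale.Agent.P011.H339.N1c

/-!
**The two steps at one place**: from a sequence of local targets `w`, a symmetric element for the
first line; then, at the new base point, a symmetric element for the second line.
-/

open Module Filter Topology

set_option linter.unusedSectionVars false
set_option linter.unusedVariables false

namespace Vale.Agent.P011.H339

open Vale.Agent.P011.H182 Vale.Agent.P011.H775 Vale.Agent.P011.H948 Vale.Agent.P011.H748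
open Vale.Agent.P011.H3 (Comps NS Tgt nK Ef Rf Pos Tl stl)

/-- A common lower bound of finitely many positive numbers. -/
theorem exists_low {ι : Type} [Fintype ι] (c : ι → ℝ) (hc : ∀ i, 0 < c i) :
    ∃ c0 : ℝ, 0 < c0 ∧ ∀ i, c0 ≤ c i := by
  have hS : 0 ≤ ∑ i, (c i)⁻¹ := Finset.sum_nonneg fun i _ => (inv_pos.2 (hc i)).le
  refine ⟨(1 + ∑ i, (c i)⁻¹)⁻¹, by positivity, fun i => ?_⟩
  have h1 : (c i)⁻¹ ≤ 1 + ∑ i, (c i)⁻¹ := by
    have h2 : (c i)⁻¹ ≤ ∑ i, (c i)⁻¹ :=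
      Finset.single_le_sum (f := fun i => (c i)⁻¹) (fun i _ => (inv_pos.2 (hc i)).le)
        (Finset.mem_univ i)
    linarith
  rw [inv_le_comm₀ (by positivity) (hc i)]
  exact h1

section tgt

variable {k K D : Type} [Field k] [Field K] [StarRing K] [DivisionRing D] [StarRing D]
  [Algebra k K] [Algebra k D] [Algebra K D] [IsScalarTower k K D]
  {N : ℕ} {B : Basis (Fin N) k D} {a : AbsoluteValue k ℝ} {C : Cub K D}
  {ω : Filter ℕ} {x : D} {ι : Type} {b : ι → K → ℝ} {w : ℕ → D}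

theorem tgt_bd (ht : Tgt C B a ω x b w) : Bd B a ω w := by
  obtain ⟨R, hR⟩ := ht.bdd
  exact Bd.of_le hR

theorem tgt_unit (ht : Tgt C B a ω x b w) : AE B a ω (fun j => star (w j) * w j) fun _ => 1 :=
  fun _ hη => ht.unit.eventually (gt_mem_nhds hη)

theorem tgt_tr (ht : Tgt C B a ω x b w) : Nu B a ω fun j => C.T ((x - 1) * w j) • (1 : D) := by
  intro η hη
  filter_upwards [ht.tr.eventually (gt_mem_nhds hη)] with j hj
  rwa [nK, Algebra.algebraMap_eq_smul_one] at hj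

end tgt

section one

variable {k K D : Type} [Field k] [Field K] [StarRing K] [DivisionRing D] [StarRing D]
  [Algebra k K] [Algebra k D] [Algebra K D] [IsScalarTower k K D]
  {N : ℕ} {B : Basis (Fin N) k D} {a : AbsoluteValue k ℝ} {C : Cub K D}

theorem hsm_of (h : SCub C) (hk : ∀ c : k, star (algebraMap k K c) = algebraMap k K c) (c : k)
    (x : D) : star (c • x) = c • star x := by
  rw [← algebraMap_smul K c x, h.smul, hk, algebraMap_smul]

theorem star_z (h : SCub C) {x u : D} (hx : x * star x = 1) (hu : u * star u = 1) :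
    star ((x - 1) * u) = u⁻¹ * (x⁻¹ - 1) := by
  rw [h.inv_eq_star hx, h.inv_eq_star hu, star_mul, star_sub, star_one]

/-- **The first step at one place.** -/
theorem first_step [Infinite k] (h : SCub C)
    (hk : ∀ c : k, star (algebraMap k K c) = algebraMap k K c) (h2 : (2 : K) ≠ 0)
    {ω : Ultrafilter ℕ} {ι : Type} [Fintype ι] {b : ι → K → ℝ} (hb : Comps B a b)
    {x u : D} (hx : x * star x = 1) (hu : u * star u = 1)
    (hnd : ∀ e : K, (x - 1) * u ≠ e • star ((x - 1) * u))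
    (hND : ∃ (m : ℕ) (ξ t : Fin m → D), (∀ i, star (ξ i) = ξ i) ∧
      ∀ Q : D, ∃ e : K, Q = e • star ((x - 1) * u) +
        ∑ i, Rf C (star ((x - 1) * u)) Q (ξ i) • t i)
    (h8 : ∃ ξ : D, star ξ = ξ ∧ C.T ((x - 1) * u * ξ) = 0 ∧ C.T ((x - 1) * u * C.adj ξ) ≠ 0)
    {w : ℕ → D} (ht : Tgt C B a ω x b w) :
    ∃ ξ : D, star ξ = ξ ∧ be C ((x - 1) * u) ξ ≠ 0 ∧ ∃ γ : ℝ, 0 < γ ∧
      ∀ u₁ : D, u₁ * star u₁ = 1 →
        na B a (u₁ - u * star (be C ((x - 1) * u) ξ) * (be C ((x - 1) * u) ξ)⁻¹) < γ →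
        (∀ᶠ j in (ω : Filter ℕ), C.T (w j * (x - 1) * w j * u₁⁻¹) ≠ 0) ∧
        Bd B a (ω : Filter ℕ) fun j => (C.T (w j * (x - 1) * w j * u₁⁻¹))⁻¹ • (1 : D) := by
  have hu0 : u ≠ 0 := h.ne_zero_of_unitary hu
  have hz' := star_z h hx hu
  obtain ⟨z, hz⟩ : ∃ z, z = (x - 1) * u := ⟨_, rfl⟩
  rw [← hz] at hnd hND h8 hz' ⊢
  obtain ⟨W, hW⟩ : ∃ W : ℕ → D, W = fun j => w j * (x - 1) * w j := ⟨_, rfl⟩
  have hQ : ∀ i, NS ω (b i) (star z) fun j => u⁻¹ * W j := by
    intro i m t e R hR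
    refine ht.ns i m (fun l => u * t l) e R fun j => ?_
    have h3 := congrArg (fun y => u * y) (hR j)
    simp only [mul_add, Finset.mul_sum, mul_smul_comm, hz', mul_inv_cancel_left₀ hu0] at h3
    rw [← h3, hW]
  obtain ⟨ξ, hξ, hpos⟩ := H3.step1 (hsm_of h hk) h2 hb hnd hND h8 (fun ξ hξ => by
    constructor
    · rw [← h.T, star_mul, hξ, C.T_comm]
    · rw [← h.T, star_mul, h.adj_symm hξ, C.T_comm]) hQ
  obtain ⟨m, hm⟩ : ∃ m, m = be C z ξ := ⟨_, rfl⟩
  have hm0 : m ≠ 0 := by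
    intro h0
    obtain ⟨i⟩ := hb.ne
    obtain ⟨j, hj⟩ := (Pos.ne (hb.sz i) (hpos i)).exists
    apply hj
    rw [Ef, ← hm, h0, mul_zero, zero_mul, map_zero]
  have hms0 : star m ≠ 0 := fun h0 => hm0 (star_eq_zero.1 h0)
  have hNm : C.N (star m) ≠ 0 := by
    intro h0
    have h3 := C.mul_adj (star m)
    rw [h0, zero_smul] at h3
    have h4 := C.inv_eq hms0
    rw [h0, inv_zero, zero_smul] at h4
    exact inv_ne_zero hms0 h4
  refine ⟨ξ, hξ, by rw [← hm]; exact hm0, ?_⟩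
  rw [← hm]
  obtain ⟨u₀, hu₀⟩ : ∃ u₀, u₀ = u * star m * m⁻¹ := ⟨_, rfl⟩
  rw [← hu₀]
  -- the value at the point itself
  have hE : ∀ j, C.T (W j * star u₀) = (C.N (star m))⁻¹ * Ef C z (star z) (u⁻¹ * W j) ξ := by
    intro j
    have hcomm : Commute (star m) m := by
      rw [hm]
      exact comm_star_be h hξ
    have h3 : (star m)⁻¹ * m = m * (star m)⁻¹ := (hcomm.inv_left₀).eq
    have h4 : star u₀ = m * (star m)⁻¹ * u⁻¹ := by
      rw [hu₀, star_mul, star_mul, star_star, star_inv₀, ← mul_assoc, h3, h.inv_eq_star hu]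
    rw [h4, Ef, ← star_be h hξ, ← hm, C.inv_eq hms0, mul_smul_comm, smul_mul_assoc,
      mul_smul_comm, map_smul, smul_eq_mul]
    congr 1
    rw [show W j * (m * C.adj (star m) * u⁻¹) = (W j * m * C.adj (star m)) * u⁻¹ by
      simp only [mul_assoc], C.T_comm]
    simp only [mul_assoc]
  have hPE : ∀ i, Pos (b i) ω fun j => C.T (W j * star u₀) := by
    intro i
    simp only [hE]
    exact Pos.mul (hb.sz i) (Pos.const (hb.sz i) (inv_ne_zero hNm)) (hpos i)
  -- nearby points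
  obtain ⟨c, hc, hle⟩ := hb.le
  obtain ⟨CT, hCT, hT⟩ := na_linear B a (Tl k C)
  obtain ⟨Cs, hCs, hS⟩ := na_linear B a (stl h hk)
  obtain ⟨Cm, hCm, hmul⟩ := na_mul B a
  have bW : Bd B a (ω : Filter ℕ) W := by
    rw [hW]
    exact ((tgt_bd ht).mul (Bd.const (x - 1))).mul (tgt_bd ht)
  obtain ⟨R, hR⟩ := bW
  choose c' hc' hc'' using hPE
  obtain ⟨c0, hc0, hle0⟩ := exists_low c' hc'
  obtain ⟨L, hL⟩ : ∃ L, L = c * (CT * (Cm * |R| * Cs)) + 1 := ⟨_, rfl⟩
  have hL0 : 0 < L := by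
    rw [hL]
    positivity
  refine ⟨c0 / (2 * L), by positivity, fun u₁ hu₁ hnear => ?_⟩
  rw [h.inv_eq_star hu₁]
  have hPA : ∀ i, Pos (b i) ω fun j => C.T (W j * star u₁) := by
    intro i
    refine ⟨c0 / 2, by positivity, ?_⟩
    filter_upwards [hc'' i, hR] with j h3 h4
    have h5 : b i (C.T (W j * star u₀) - C.T (W j * star u₁)) ≤
        c * (CT * (Cm * |R| * (Cs * na B a (u₁ - u₀)))) := by
      refine (hle i _).trans (mul_le_mul_of_nonneg_left ?_ hc.le)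
      have e : C.T (W j * star u₀) - C.T (W j * star u₁) = C.T (W j * star (u₀ - u₁)) := by
        rw [star_sub, mul_sub, map_sub]
      rw [e]
      refine (hT _).trans (mul_le_mul_of_nonneg_left ?_ hCT.le)
      refine (hmul _ _).trans ?_
      have h6 : na B a (W j) ≤ |R| := h4.trans (le_abs_self _)
      have h7 : na B a (star (u₀ - u₁)) ≤ Cs * na B a (u₁ - u₀) := by
        rw [na_sub_comm B a u₁ u₀]
        exact hS _
      have h8 := na_nonneg B a (W j)
      have h9 := na_nonneg B a (star (u₀ - u₁))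
      gcongr
    have h6 := (hb.sz i).add (C.T (W j * star u₀) - C.T (W j * star u₁)) (C.T (W j * star u₁))
    rw [sub_add_cancel] at h6
    have h7 : c * (CT * (Cm * |R| * (Cs * na B a (u₁ - u₀)))) ≤ c0 / 2 := by
      rw [lt_div_iff₀ (by positivity)] at hnear
      have h8 := na_nonneg B a (u₁ - u₀)
      have h9 : c * (CT * (Cm * |R| * (Cs * na B a (u₁ - u₀)))) =
          (L - 1) * na B a (u₁ - u₀) := by
        rw [hL]
        ring
      rw [h9]
      nlinarith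
    have h8 := hle0 i
    linarith
  obtain ⟨h3, R', h4⟩ := H3.Comps.inv_bd hb hPA
  refine ⟨?_, R', ?_⟩
  · filter_upwards [h3] with j hj
    rw [hW] at hj
    exact hj
  · filter_upwards [h4] with j hj
    rw [hW, Algebra.algebraMap_eq_smul_one] at hj
    exact hj

/-- **The second step at one place.** -/
theorem second_step [Infinite k] (h : SCub C)
    (hk : ∀ c : k, star (algebraMap k K c) = algebraMap k K c) (h2 : (2 : K) ≠ 0)
    {s : K} (hs : star s = -s) (hs0 : s ≠ 0)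
    (hfix : ∀ c : K, star c = c → ∃ e : k, algebraMap k K e = c)
    {ω : Filter ℕ} [ω.NeBot] {ι : Type} {b : ι → K → ℝ}
    {x u₁ : D} (hu₁ : u₁ * star u₁ = 1) (hT₁ : C.T ((x - 1) * u₁) = 0)
    {w : ℕ → D} (ht : Tgt C B a ω x b w)
    (h0 : ∀ᶠ j in ω, C.T (w j * (x - 1) * w j * u₁⁻¹) ≠ 0)
    (hinv : Bd B a ω fun j => (C.T (w j * (x - 1) * w j * u₁⁻¹))⁻¹ • (1 : D))
    {U : Set ℕ} (hU : ∀ᶠ j in ω, j ∈ U) {ε : ℝ} (hε : 0 < ε) :
    ∃ j ∈ U, ∃ l : K, l * star l = 1 ∧ ∃ ξ : D, star ξ = ξ ∧ be C ((x - 1) * u₁) ξ ≠ 0 ∧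
      ∃ δ : ℝ, 0 < δ ∧ ∀ y : D,
        na B a (y - u₁ * star (be C ((x - 1) * u₁) ξ) * (be C ((x - 1) * u₁) ξ)⁻¹) < δ →
        na B a (l • y - w j) < ε := by
  obtain ⟨μ, hμ, hμ1⟩ := exists_mu4 (k := k) h2 hs hs0 hk
  obtain ⟨m, ξ, hm, bm, hξ, hbe, hAE⟩ := n1_seq C h2 (hsm_of h hk) h.smul h.N hs hs0 hfix hμ hμ1
    hu₁ hT₁ (tgt_bd ht) hinv (tgt_unit ht) (tgt_tr ht) (AE.of_eq (by
      filter_upwards [h0] with j hj
      rw [smul_mul_smul_comm, mul_one, mul_inv_cancel₀ hj, one_smul]))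
  have bl : Bd B a ω fun j => star (m j) • (1 : D) := by
    refine (bm.st (hsm_of h hk)).congr (Eventually.of_forall fun j => ?_)
    rw [h.smul, star_one]
  have hnu := Nu.bd_mul bl hAE
  obtain ⟨j, hj1, hj2, hj3⟩ := (hU.and (hbe.and (hnu (ε / 2) (half_pos hε)))).exists
  dsimp only at hj3
  obtain ⟨Cm, hCm, hmul⟩ := na_mul B a
  have hmj : star (m j) * m j = 1 := by rw [mul_comm]; exact hm j
  have hnn := na_nonneg B a (star (m j) • (1 : D))
  refine ⟨j, hj1, star (m j), by rw [star_star]; exact hmj, ξ j, hξ j, hj2,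
    ε / (2 * (Cm * na B a (star (m j) • (1 : D)) + 1)), by positivity, fun y hy => ?_⟩
  obtain ⟨q, hq⟩ : ∃ q, q = u₁ * star (be C ((x - 1) * u₁) (ξ j)) *
    (be C ((x - 1) * u₁) (ξ j))⁻¹ := ⟨_, rfl⟩
  rw [← hq] at hy hj3
  have e1 : star (m j) • y - w j = (star (m j) • (1 : D)) * (y - q) +
      (star (m j) • (1 : D)) * (q - m j • w j) := by
    simp only [smul_mul_assoc, one_mul, smul_sub, smul_smul, hmj, one_smul]
    abel
  rw [lt_div_iff₀ (by positivity)] at hy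
  have h3 := hmul (star (m j) • (1 : D)) (y - q)
  have h4 := na_nonneg B a (y - q)
  rw [e1]
  have h5 := na_add_le B a ((star (m j) • (1 : D)) * (y - q))
    ((star (m j) • (1 : D)) * (q - m j • w j))
  nlinarith

end one

end Vale.Agent.P011.H339
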