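import Vale.Agent.P011.H182.Nma

/-!
Asymptotic calculus: functions with values in a finite dimensional division algebra which are
bounded, or tend to zero, along a filter.
-/

open Module Filter

set_option linter.unusedSectionVars false
set_option linter.unusedVariables false

namespace Vale.Agent.P011.H339

open Vale.Agent.P011.H182

variable {k D : Type} [Field k] [DivisionRing D] [Algebra k D] {N : ℕ}
  (B : Basis (Fin N) k D) (a : AbsoluteValue k ℝ) {X : Type} (F : Filter X)

/-- Bounded along the filter. -/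
def Bd (f : X → D) : Prop := ∃ M : ℝ, ∀ᶠ x in F, na B a (f x) ≤ M

/-- Tending to zero along the filter. -/
def Nu (f : X → D) : Prop := ∀ η : ℝ, 0 < η → ∀ᶠ x in F, na B a (f x) < η

/-- Asymptotically equal. -/
def AE (f g : X → D) : Prop := Nu B a F fun x => f x - g x

variable {B a F} {f f' g g' h : X → D}

theorem Bd.congr (hf : Bd B a F f) (h : ∀ᶠ x in F, f x = g x) : Bd B a F g := by
  obtain ⟨M, hM⟩ := hf
  exact ⟨M, by filter_upwards [hM, h] with x h1 h2; rwa [← h2]⟩

theorem Bd.const (c : D) : Bd B a F fun _ => c := ⟨na B a c, Eventually.of_forall fun _ => le_rfl⟩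

theorem Bd.of_le {M : ℝ} (h : ∀ x, na B a (f x) ≤ M) : Bd B a F f := ⟨M, Eventually.of_forall h⟩

theorem Bd.add (hf : Bd B a F f) (hg : Bd B a F g) : Bd B a F fun x => f x + g x := by
  obtain ⟨M, hM⟩ := hf
  obtain ⟨M', hM'⟩ := hg
  refine ⟨M + M', ?_⟩
  filter_upwards [hM, hM'] with x h1 h2
  exact (na_add_le B a _ _).trans (add_le_add h1 h2)

theorem Bd.neg (hf : Bd B a F f) : Bd B a F fun x => -f x := by
  obtain ⟨M, hM⟩ := hf
  refine ⟨M, ?_⟩
  filter_upwards [hM] with x h1
  rwa [na_neg]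

theorem Bd.sub (hf : Bd B a F f) (hg : Bd B a F g) : Bd B a F fun x => f x - g x := by
  simp only [sub_eq_add_neg]
  exact hf.add hg.neg

theorem Bd.mul (hf : Bd B a F f) (hg : Bd B a F g) : Bd B a F fun x => f x * g x := by
  obtain ⟨M, hM⟩ := hf
  obtain ⟨M', hM'⟩ := hg
  obtain ⟨C, hC, hm⟩ := na_mul B a
  refine ⟨C * |M| * |M'|, ?_⟩
  filter_upwards [hM, hM'] with x h1 h2
  refine (hm _ _).trans ?_
  have h3 := h1.trans (le_abs_self M)
  have h4 := h2.trans (le_abs_self M')
  exact mul_le_mul (mul_le_mul_of_nonneg_left h3 (by linarith)) h4 (na_nonneg _ _ _)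
    (by positivity)

theorem Bd.lin (L : D →ₗ[k] D) (hf : Bd B a F f) : Bd B a F fun x => L (f x) := by
  obtain ⟨M, hM⟩ := hf
  obtain ⟨C, hC, hL⟩ := na_linear B a L
  refine ⟨C * M, ?_⟩
  filter_upwards [hM] with x h1
  exact (hL _).trans (mul_le_mul_of_nonneg_left h1 hC.le)

theorem Nu.congr (hf : Nu B a F f) (h : ∀ᶠ x in F, f x = g x) : Nu B a F g := by
  intro η hη
  filter_upwards [hf η hη, h] with x h1 h2
  rwa [← h2]

theorem Nu.zero : Nu B a F fun _ => (0 : D) := fun η hη =>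
  Eventually.of_forall fun _ => by rwa [na_zero]

theorem Nu.bd (hf : Nu B a F f) : Bd B a F f := by
  refine ⟨1, ?_⟩
  filter_upwards [hf 1 one_pos] with x h1
  exact h1.le

theorem Nu.add (hf : Nu B a F f) (hg : Nu B a F g) : Nu B a F fun x => f x + g x := by
  intro η hη
  filter_upwards [hf (η / 2) (half_pos hη), hg (η / 2) (half_pos hη)] with x h1 h2
  linarith [na_add_le B a (f x) (g x)]

theorem Nu.neg (hf : Nu B a F f) : Nu B a F fun x => -f x := by
  intro η hη
  filter_upwards [hf η hη] with x h1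
  rwa [na_neg]

theorem Nu.sub (hf : Nu B a F f) (hg : Nu B a F g) : Nu B a F fun x => f x - g x := by
  simp only [sub_eq_add_neg]
  exact hf.add hg.neg

theorem Nu.mul_bd (hf : Nu B a F f) (hg : Bd B a F g) : Nu B a F fun x => f x * g x := by
  obtain ⟨M, hM⟩ := hg
  obtain ⟨C, hC, hm⟩ := na_mul B a
  intro η hη
  have hp : 0 < C * (|M| + 1) := by positivity
  filter_upwards [hf (η / (C * (|M| + 1))) (div_pos hη hp), hM] with x h1 h2
  rw [lt_div_iff₀ hp] at h1
  refine (hm _ _).trans_lt ?_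
  have h3 : na B a (g x) ≤ |M| + 1 := by linarith [le_abs_self M]
  have h4 : C * na B a (f x) * na B a (g x) ≤ C * na B a (f x) * (|M| + 1) :=
    mul_le_mul_of_nonneg_left h3 (mul_nonneg (by linarith) (na_nonneg _ _ _))
  nlinarith

theorem Nu.bd_mul (hf : Bd B a F f) (hg : Nu B a F g) : Nu B a F fun x => f x * g x := by
  obtain ⟨M, hM⟩ := hf
  obtain ⟨C, hC, hm⟩ := na_mul B a
  intro η hη
  have hp : 0 < C * (|M| + 1) := by positivity
  filter_upwards [hg (η / (C * (|M| + 1))) (div_pos hη hp), hM] with x h1 h2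
  rw [lt_div_iff₀ hp] at h1
  refine (hm _ _).trans_lt ?_
  have h3 : na B a (f x) ≤ |M| + 1 := by linarith [le_abs_self M]
  have h4 : C * na B a (f x) * na B a (g x) ≤ C * (|M| + 1) * na B a (g x) :=
    mul_le_mul_of_nonneg_right (mul_le_mul_of_nonneg_left h3 (by linarith)) (na_nonneg _ _ _)
  nlinarith

theorem Nu.lin (L : D →ₗ[k] D) (hf : Nu B a F f) : Nu B a F fun x => L (f x) := by
  obtain ⟨C, hC, hL⟩ := na_linear B a L
  intro η hη
  filter_upwards [hf (η / C) (div_pos hη hC)] with x h1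
  rw [lt_div_iff₀ hC] at h1
  refine (hL _).trans_lt ?_
  linarith

theorem AE.of_eq (h : ∀ᶠ x in F, f x = g x) : AE B a F f g := by
  refine Nu.congr Nu.zero ?_
  filter_upwards [h] with x h1
  rw [h1, sub_self]

theorem AE.refl (f : X → D) : AE B a F f f := AE.of_eq (Eventually.of_forall fun _ => rfl)

theorem AE.symm (h : AE B a F f g) : AE B a F g f := by
  have h1 := Nu.neg h
  simp only [neg_sub] at h1
  exact h1

theorem AE.trans (h1 : AE B a F f g) (h2 : AE B a F g h) : AE B a F f h := by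
  have h3 := Nu.add h1 h2
  simp only [sub_add_sub_cancel] at h3
  exact h3

theorem AE.congr_left (h1 : AE B a F f g) (h2 : ∀ᶠ x in F, f x = f' x) : AE B a F f' g :=
  (AE.of_eq h2).symm.trans h1

theorem AE.congr_right (h1 : AE B a F f g) (h2 : ∀ᶠ x in F, g x = g' x) : AE B a F f g' :=
  h1.trans (AE.of_eq h2)

theorem AE.bd (h1 : AE B a F f g) (h2 : Bd B a F g) : Bd B a F f := by
  have h3 := (Nu.bd h1).add h2
  simp only [sub_add_cancel] at h3
  exact h3

theorem AE.bd' (h1 : AE B a F f g) (h2 : Bd B a F f) : Bd B a F g := h1.symm.bd h2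

theorem AE.add (h1 : AE B a F f g) (h2 : AE B a F f' g') :
    AE B a F (fun x => f x + f' x) fun x => g x + g' x := by
  refine Nu.congr (Nu.add h1 h2) (Eventually.of_forall fun x => ?_)
  dsimp only
  abel

theorem AE.neg (h1 : AE B a F f g) : AE B a F (fun x => -f x) fun x => -g x := by
  refine Nu.congr (Nu.neg h1) (Eventually.of_forall fun x => ?_)
  dsimp only
  abel

theorem AE.sub (h1 : AE B a F f g) (h2 : AE B a F f' g') :
    AE B a F (fun x => f x - f' x) fun x => g x - g' x := by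
  refine Nu.congr (Nu.sub h1 h2) (Eventually.of_forall fun x => ?_)
  dsimp only
  abel

theorem AE.mul (h1 : AE B a F f g) (h2 : AE B a F f' g') (hg : Bd B a F g) (hg' : Bd B a F g') :
    AE B a F (fun x => f x * f' x) fun x => g x * g' x := by
  have hf' := h2.bd hg'
  refine Nu.congr (Nu.add (Nu.mul_bd h1 hf') (Nu.bd_mul hg h2)) (Eventually.of_forall fun x => ?_)
  noncomm_ring

theorem AE.lin (L : D →ₗ[k] D) (h1 : AE B a F f g) :
    AE B a F (fun x => L (f x)) fun x => L (g x) := by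
  refine Nu.congr (Nu.lin L h1) (Eventually.of_forall fun x => ?_)
  rw [map_sub]

theorem AE.nu (h1 : AE B a F f g) (h2 : Nu B a F g) : Nu B a F f := by
  refine Nu.congr (Nu.add h1 h2) (Eventually.of_forall fun x => ?_)
  abel

theorem AE.of_nu (h1 : Nu B a F f) : AE B a F f fun _ => 0 := by
  refine Nu.congr h1 (Eventually.of_forall fun x => ?_)
  rw [sub_zero]

/-- **Inverses.** -/
theorem AE.inv (h1 : AE B a F (fun x => f x * g x) fun _ => 1) (hg : Bd B a F g) :
    (∀ᶠ x in F, f x ≠ 0) ∧ Bd B a F (fun x => (f x)⁻¹) ∧ AE B a F (fun x => (f x)⁻¹) g := by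
  obtain ⟨C, hC, hm⟩ := na_mul B a
  obtain ⟨M, hM⟩ := hg
  have h10 : 0 < na B a (1 : D) := na_pos B a one_ne_zero
  have hf0 : ∀ᶠ x in F, f x ≠ 0 := by
    filter_upwards [h1 _ h10] with x h2 h3
    rw [h3, zero_mul, zero_sub, na_neg] at h2
    exact lt_irrefl _ h2
  have e : ∀ x, f x ≠ 0 → g x - (f x)⁻¹ = (f x)⁻¹ * (f x * g x - 1) := by
    intro x hx
    rw [mul_sub, ← mul_assoc, inv_mul_cancel₀ hx, one_mul, mul_one]
  have hb : Bd B a F fun x => (f x)⁻¹ := by
    refine ⟨2 * M, ?_⟩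
    filter_upwards [hf0, hM, h1 (1 / (2 * C)) (by positivity)] with x h2 h3 h4
    have h5 := na_sub_le B a (g x) (g x - (f x)⁻¹)
    rw [sub_sub_cancel, e x h2] at h5
    have h6 := hm (f x)⁻¹ (f x * g x - 1)
    rw [lt_div_iff₀ (by positivity)] at h4
    have h7 := na_nonneg B a (f x)⁻¹
    have h8 : C * na B a (f x)⁻¹ * na B a (f x * g x - 1) ≤ na B a (f x)⁻¹ * (1 / 2) := by
      have h9 : C * na B a (f x * g x - 1) ≤ 1 / 2 := by linarith
      calc C * na B a (f x)⁻¹ * na B a (f x * g x - 1) =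
          na B a (f x)⁻¹ * (C * na B a (f x * g x - 1)) := by ring
        _ ≤ _ := mul_le_mul_of_nonneg_left h9 h7
    linarith
  refine ⟨hf0, hb, AE.symm ?_⟩
  refine Nu.congr (Nu.bd_mul hb h1) ?_
  filter_upwards [hf0] with x h2
  rw [e x h2]

theorem not_nu_const [F.NeBot] {c : D} (hc : c ≠ 0) : ¬ Nu B a F fun _ => c := by
  intro h
  obtain ⟨x, hx⟩ := (h _ (na_pos B a hc)).exists
  exact lt_irrefl _ hx

/-- Passing to a finer filter. -/
theorem Nu.mono {F' : Filter X} (h : F' ≤ F) (hf : Nu B a F f) : Nu B a F' f :=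
  fun η hη => h (hf η hη)

theorem Bd.mono {F' : Filter X} (h : F' ≤ F) (hf : Bd B a F f) : Bd B a F' f := by
  obtain ⟨M, hM⟩ := hf
  exact ⟨M, h hM⟩

theorem Nu.comp {Y : Type} {G : Filter Y} {φ : Y → X} (h : Tendsto φ G F) (hf : Nu B a F f) :
    Nu B a G fun y => f (φ y) := fun η hη => h.eventually (hf η hη)

theorem AE.comp {Y : Type} {G : Filter Y} {φ : Y → X} (h : Tendsto φ G F) (hf : AE B a F f g) :
    AE B a G (fun y => f (φ y)) fun y => g (φ y) := fun η hη => h.eventually (hf η hη)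

theorem Bd.comp {Y : Type} {G : Filter Y} {φ : Y → X} (h : Tendsto φ G F) (hf : Bd B a F f) :
    Bd B a G fun y => f (φ y) := by
  obtain ⟨M, hM⟩ := hf
  exact ⟨M, h.eventually hM⟩

end Vale.Agent.P011.H339
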