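import Vale.Agent.P011.H339.As
import Vale.Agent.P011.H948.SIalg

/-!
Asymptotic calculus for the reduced trace, the reduced norm, the adjoint and the involution of an
algebra of degree three.
-/

open Module Filter

set_option linter.unusedSectionVars false
set_option linter.unusedVariables false

namespace Vale.Agent.P011.H339

open Vale.Agent.P011.H182 Vale.Agent.P011.H775 Vale.Agent.P011.H948

variable {k K D : Type} [Field k] [Field K] [DivisionRing D] [Algebra k K] [Algebra k D]
  [Algebra K D] [IsScalarTower k K D]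

/-- The reduced trace as an element of the algebra. -/
noncomputable def TD (k : Type) [Field k] [Algebra k K] [Algebra k D] [IsScalarTower k K D]
    (C : Cub K D) : D →ₗ[k] D :=
  ((LinearMap.toSpanSingleton K D 1) ∘ₗ C.T).restrictScalars k

theorem TD_apply (C : Cub K D) (x : D) : TD k C x = C.T x • (1 : D) := rfl

/-- Multiplication by an element of the centre. -/
noncomputable def ML (k D : Type) [Field k] [DivisionRing D] [Algebra k K] [Algebra k D]
    [Algebra K D] [IsScalarTower k K D] (c : K) : D →ₗ[k] D :=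
  (c • (LinearMap.id : D →ₗ[K] D)).restrictScalars k

theorem ML_apply (c : K) (x : D) : ML k D c x = c • x := rfl

theorem sm1 (c : K) (x : D) : c • x = (c • (1 : D)) * x := (smul_one_mul c x).symm

theorem smm (c e : K) : (c • (1 : D)) * (e • (1 : D)) = (c * e) • (1 : D) := by
  rw [smul_mul_smul_comm, one_mul]

/-- The adjoint in terms of the trace. -/
theorem adjF (C : Cub K D) (h2 : (2 : K) ≠ 0) (x : D) : C.adj x =
    x * x - TD k C x * x + ML k D (2⁻¹ : K) (TD k C x * TD k C x - TD k C (x * x)) := by
  have h := C.cr_self x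
  rw [Cub.cr] at h
  have h1 : C.adj x = (2⁻¹ : K) • ((2 : K) • C.adj x) := by
    rw [smul_smul, inv_mul_cancel₀ h2, one_smul]
  rw [h1, ← h, ML_apply, TD_apply, TD_apply, smm, ← sm1, ← sub_smul]
  have h3 : x * x + x * x - C.T x • x - C.T x • x = (2 : K) • (x * x - C.T x • x) := by
    rw [two_smul]
    abel
  rw [h3, smul_add, smul_smul, inv_mul_cancel₀ h2, one_smul]

variable {N : ℕ} {B : Basis (Fin N) k D} {a : AbsoluteValue k ℝ} {X : Type} {F : Filter X}
  {f f' g g' : X → D} (C : Cub K D)

theorem Bd.T (hf : Bd B a F f) : Bd B a F fun x => C.T (f x) • (1 : D) := hf.lin (TD k C)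

theorem Nu.T (hf : Nu B a F f) : Nu B a F fun x => C.T (f x) • (1 : D) := hf.lin (TD k C)

theorem AE.T (hf : AE B a F f g) :
    AE B a F (fun x => C.T (f x) • (1 : D)) fun x => C.T (g x) • (1 : D) := hf.lin (TD k C)

theorem Bd.sm (c : K) (hf : Bd B a F f) : Bd B a F fun x => c • f x := hf.lin (ML k D c)

theorem Nu.sm (c : K) (hf : Nu B a F f) : Nu B a F fun x => c • f x := hf.lin (ML k D c)

theorem AE.sm (c : K) (hf : AE B a F f g) : AE B a F (fun x => c • f x) fun x => c • g x :=
  hf.lin (ML k D c)

theorem Bd.adj (h2 : (2 : K) ≠ 0) (hf : Bd B a F f) : Bd B a F fun x => C.adj (f x) := by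
  simp only [adjF (k := k) C h2]
  exact ((hf.mul hf).sub ((hf.lin _).mul hf)).add
    ((((hf.lin _).mul (hf.lin _)).sub ((hf.mul hf).lin _)).lin _)

theorem AE.adj (h2 : (2 : K) ≠ 0) (hf : AE B a F f g) (hg : Bd B a F g) :
    AE B a F (fun x => C.adj (f x)) fun x => C.adj (g x) := by
  simp only [adjF (k := k) C h2]
  have h1 : Bd B a F fun x => TD k C (g x) := hg.lin _
  exact ((hf.mul hf hg hg).sub ((hf.lin _).mul hf h1 hg)).add
    ((((hf.lin _).mul (hf.lin _) h1 h1).sub ((hf.mul hf hg hg).lin _)).lin _)

theorem Bd.nrm (h2 : (2 : K) ≠ 0) (hf : Bd B a F f) : Bd B a F fun x => C.N (f x) • (1 : D) := by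
  simp only [← C.mul_adj]
  exact hf.mul (hf.adj C h2)

theorem AE.nrm (h2 : (2 : K) ≠ 0) (hf : AE B a F f g) (hg : Bd B a F g) :
    AE B a F (fun x => C.N (f x) • (1 : D)) fun x => C.N (g x) • (1 : D) := by
  simp only [← C.mul_adj]
  exact hf.mul (hf.adj C h2 hg) hg (hg.adj C h2)

section star

variable [StarRing K] [StarRing D]

/-- The involution as a linear map. -/
def SD (hk : ∀ (c : k) (x : D), star (c • x) = c • star x) : D →ₗ[k] D :=
  { toFun := star, map_add' := star_add, map_smul' := hk }

theorem Bd.st (hk : ∀ (c : k) (x : D), star (c • x) = c • star x) (hf : Bd B a F f) :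
    Bd B a F fun x => star (f x) := hf.lin (SD hk)

theorem Nu.st (hk : ∀ (c : k) (x : D), star (c • x) = c • star x) (hf : Nu B a F f) :
    Nu B a F fun x => star (f x) := hf.lin (SD hk)

theorem AE.st (hk : ∀ (c : k) (x : D), star (c • x) = c • star x) (hf : AE B a F f g) :
    AE B a F (fun x => star (f x)) fun x => star (g x) := hf.lin (SD hk)

/-- `star v * v → 1` implies `v * star v → 1`. -/
theorem AE.swap (hk : ∀ (c : k) (x : D), star (c • x) = c • star x) {v : X → D}
    (hv : Bd B a F v) (h1 : AE B a F (fun x => star (v x) * v x) fun _ => 1) :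
    AE B a F (fun x => v x * star (v x)) fun _ => 1 := by
  obtain ⟨h2, h3, h4⟩ := h1.inv hv
  have h5 : AE B a F (fun x => v x * star (v x))
      fun x => (star (v x))⁻¹ * star (v x) :=
    h4.symm.mul (AE.refl _) h3 (hv.st hk)
  refine h5.congr_right ?_
  filter_upwards [h2] with x hx
  rw [inv_mul_cancel₀ hx]

end star

/-- A scalar of the ground field whose square tends to zero. -/
theorem Nu.of_sq {c : X → k} {e e' : D} (he : e ≠ 0) (h : Nu B a F fun x => (c x * c x) • e) :
    Nu B a F fun x => c x • e' := by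
  intro η hη
  have h1 := na_pos B a he
  have h2 := na_nonneg B a e'
  have h3 : 0 < η / (na B a e' + 1) := by positivity
  filter_upwards [h ((η / (na B a e' + 1)) ^ 2 * na B a e) (by positivity)] with x hx
  rw [na_smul, map_mul] at hx
  have h4 : a (c x) * a (c x) < (η / (na B a e' + 1)) ^ 2 := lt_of_mul_lt_mul_right hx h1.le
  have h5 : a (c x) < η / (na B a e' + 1) := by
    rw [← sq] at h4
    exact lt_of_pow_lt_pow_left₀ 2 h3.le h4
  rw [na_smul]
  rw [lt_div_iff₀ (by positivity)] at h5
  have h6 : 0 ≤ a (c x) := a.nonneg _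
  nlinarith

section star2

variable [StarRing K] [StarRing D]

/-- A scalar of norm and square tending to zero. -/
theorem Nu.of_norm (hk : ∀ (c : k) (x : D), star (c • x) = c • star x)
    (hsm : ∀ (c : K) (x : D), star (c • x) = star c • star x) (h2 : (2 : K) ≠ 0) {s : K}
    (hs : star s = -s) (hs0 : s ≠ 0) (hfix : ∀ c : K, star c = c → ∃ e : k, algebraMap k K e = c)
    {κ : X → K} (h1 : Nu B a F fun x => (κ x * κ x) • (1 : D))
    (h3 : Nu B a F fun x => (κ x * star (κ x)) • (1 : D)) : Nu B a F fun x => κ x • (1 : D) := by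
  have hst : ∀ x, star (κ x * κ x) = star (κ x) * star (κ x) := fun x => by rw [star_mul]
  have h4 : Nu B a F fun x => (star (κ x) * star (κ x)) • (1 : D) := by
    refine (h1.st hk).congr (Eventually.of_forall fun x => ?_)
    rw [hsm, star_one, hst]
  -- the trace
  have t1 : ∀ x, ∃ e : k, algebraMap k K e = κ x + star (κ x) := fun x =>
    hfix _ (by rw [star_add, star_star, add_comm])
  choose t ht using t1
  have t2 : Nu B a F fun x => (t x * t x) • (1 : D) := by
    refine ((h1.add h4).add (h3.sm (2 : K))).congr (Eventually.of_forall fun x => ?_)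
    rw [← IsScalarTower.algebraMap_smul K (t x * t x) (1 : D), map_mul, ht, smul_smul, ← add_smul,
      ← add_smul]
    congr 1
    ring
  have t3 : Nu B a F fun x => t x • (1 : D) := Nu.of_sq one_ne_zero t2
  -- the other part
  have r1 : ∀ x, ∃ e : k, algebraMap k K e = s⁻¹ * (κ x - star (κ x)) := fun x =>
    hfix _ (by
      rw [star_mul, star_sub, star_star, star_inv₀, hs, inv_neg]
      ring)
  choose r hr using r1
  have r2 : Nu B a F fun x => (r x * r x) • ((s * s) • (1 : D)) := by
    refine ((h1.add h4).sub (h3.sm (2 : K))).congr (Eventually.of_forall fun x => ?_)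
    rw [← IsScalarTower.algebraMap_smul K (r x * r x), map_mul, hr, smul_smul, smul_smul,
      ← add_smul, ← sub_smul]
    congr 1
    field_simp
    ring
  have r3 : Nu B a F fun x => r x • (s • (1 : D)) :=
    Nu.of_sq (smul_ne_zero (mul_ne_zero hs0 hs0) one_ne_zero) r2
  refine ((t3.add r3).sm (2⁻¹ : K)).congr (Eventually.of_forall fun x => ?_)
  rw [← IsScalarTower.algebraMap_smul K (r x), ← IsScalarTower.algebraMap_smul K (t x), hr, ht,
    smul_smul, ← add_smul, smul_smul]
  congr 1
  field_simp
  ring

end star2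

end Vale.Agent.P011.H339
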