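import Vale.Agent.P011.H339.AsC
import Mathlib.LinearAlgebra.Vandermonde

/-!
**The inverse of the parametrisation, asymptotically.**
If `v` is almost unitary with `T (z v)` small, `T (z v^*)` not small and `v - 1` not nearly
singular, then all elements `η` close to `s (v + 1) (v - 1)⁻¹` give a point of the
parametrisation close to `v`.
-/

open Module Filter

set_option linter.unusedSectionVars false
set_option linter.unusedVariables false

namespace Vale.Agent.P011.H339

open Vale.Agent.P011.H182 Vale.Agent.P011.H775 Vale.Agent.P011.H948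

section alg

variable {K D : Type} [Field K] [StarRing K] [DivisionRing D] [StarRing D] [Algebra K D]

theorem inv_sm1 (c : K) : (c • (1 : D))⁻¹ = c⁻¹ • (1 : D) := by
  by_cases hc : c = 0
  · rw [hc, zero_smul, inv_zero, inv_zero, zero_smul]
  · refine inv_eq_of_mul_eq_one_right ?_
    rw [smm, mul_inv_cancel₀ hc, one_smul]

theorem adj_of_inv (C : Cub K D) {p y : D} (h : p * y = 1) :
    C.adj y = C.N y • p ∧ C.adj p = C.N p • y ∧ y * p = 1 := by
  have hp : p ≠ 0 := left_ne_zero_of_mul_eq_one h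
  have hy : y = p⁻¹ := (inv_eq_of_mul_eq_one_right h).symm
  have h1 : y * p = 1 := by rw [hy, inv_mul_cancel₀ hp]
  refine ⟨?_, ?_, h1⟩
  · calc C.adj y = C.adj y * (y * p) := by rw [h1, mul_one]
      _ = C.N y • p := by rw [← mul_assoc, C.adj_mul, smul_one_mul]
  · calc C.adj p = C.adj p * (p * y) := by rw [h, mul_one]
      _ = C.N p • y := by rw [← mul_assoc, C.adj_mul, smul_one_mul]

/-- The defect of the point `c + (c^* - c) y`, `y = (v - 1)⁻¹`. -/
theorem T_adj_xi (C : Cub K D) {z v y : D} {s : K} (hz : C.T z = 0) (h : (v - 1) * y = 1) :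
    C.T (z * C.adj ((2 * s) • y + s • (1 : D))) =
      -s * C.T (z * ((2 * s) • y + s • (1 : D))) + (2 * s) ^ 2 * (C.N y * C.T (z * v)) := by
  obtain ⟨h1, h2, h3⟩ := adj_of_inv C h
  have h4 := SCub.T_mul_adj_add (C := C) hz (a := (2 * s) • y + s • (1 : D)) (-s)
  have e1 : (2 * s) • y + s • (1 : D) + (-s) • (1 : D) = (2 * s) • y := by
    rw [neg_smul, add_neg_cancel_right]
  rw [e1, C.adj_smul, h1, mul_smul_comm, mul_smul_comm, map_smul, map_smul, mul_sub, mul_one,
    map_sub, hz, sub_zero, smul_eq_mul, smul_eq_mul] at h4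
  linear_combination -h4

/-- `T (z y) N (v - 1)`, `y = (v - 1)⁻¹`. -/
theorem T_y (C : Cub K D) {z v y : D} (hz : C.T z = 0) (h : (v - 1) * y = 1) :
    C.T (z * y) * C.N (v - 1) = C.T (z * C.adj v) + C.T (z * v) := by
  obtain ⟨h1, h2, h3⟩ := adj_of_inv C h
  have h4 := adj_sub_smul_one C v 1
  rw [one_smul, one_pow, one_smul, one_smul] at h4
  rw [h4] at h2
  have h5 : C.T (z * (C.adj v - (C.T v • (1 : D) - v) + 1)) = C.T (z * (C.N (v - 1) • y)) := by
    rw [h2]
  rw [mul_smul_comm, map_smul, smul_eq_mul, mul_add, mul_sub, mul_sub, mul_smul_comm, mul_one,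
    map_add, map_sub, map_sub, map_smul, hz, smul_zero] at h5
  linear_combination -h5

end alg

variable {k K D : Type} [Field k] [Field K] [StarRing K] [DivisionRing D] [StarRing D]
  [Algebra k K] [Algebra k D] [Algebra K D] [IsScalarTower k K D]
  {N : ℕ} {B : Basis (Fin N) k D} {a : AbsoluteValue k ℝ} {X : Type} {F : Filter X}
  (C : Cub K D)

/-- The parameter `λ` of the point attached to `x`. -/
def lam (C : Cub K D) (z x : D) : K := C.T (z * C.adj x) / C.T (z * x)

/-- The point `(x + λ^*) (x + λ)⁻¹` attached to `x`. -/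
def Vp (C : Cub K D) (z x : D) : D :=
  (x + star (lam C z x) • (1 : D)) * (x + lam C z x • (1 : D))⁻¹

theorem cay_asym (h2 : (2 : K) ≠ 0) (hk : ∀ (c : k) (x : D), star (c • x) = c • star x)
    (hsm : ∀ (c : K) (x : D), star (c • x) = star c • star x) {s : K} (hs : star s = -s)
    (hs0 : s ≠ 0) {z : D} (hz : C.T z = 0) {v y b η : X → D} (hv : Bd B a F v) (hy : Bd B a F y)
    (hvy : ∀ᶠ x in F, (v x - 1) * y x = 1)
    (hTv : Nu B a F fun x => C.T (z * v x) • (1 : D)) (hb : Bd B a F b)
    (hb1 : AE B a F (fun x => (C.T (z * y x) • (1 : D)) * b x) fun _ => 1)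
    (hη : AE B a F η fun x => (2 * s) • y x + s • (1 : D)) :
    (∀ᶠ x in F, C.T (z * η x) ≠ 0) ∧ (∀ᶠ x in F, η x + lam C z (η x) • (1 : D) ≠ 0) ∧
      AE B a F (fun x => Vp C z (η x)) v ∧
      Bd B a F fun x => (C.T (z * η x) • (1 : D))⁻¹ := by
  have h2s : 2 * s ≠ 0 := mul_ne_zero h2 hs0
  have hξ : Bd B a F fun x => (2 * s) • y x + s • (1 : D) := (hy.sm _).add (Bd.const _)
  have hηb : Bd B a F η := hη.bd hξ
  have hzc : Bd B a F fun _ => z := Bd.const z
  have hzη : AE B a F (fun x => z * η x) fun x => z * ((2 * s) • y x + s • (1 : D)) :=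
    (AE.refl _).mul hη hzc hξ
  have hζ : AE B a F (fun x => C.T (z * η x) • (1 : D))
      fun x => C.T (z * ((2 * s) • y x + s • (1 : D))) • (1 : D) := hzη.T C
  have hζb : Bd B a F fun x => C.T (z * ((2 * s) • y x + s • (1 : D))) • (1 : D) :=
    (hzc.mul hξ).T C
  have e1 : ∀ x, C.T (z * ((2 * s) • y x + s • (1 : D))) = 2 * s * C.T (z * y x) := by
    intro x
    rw [mul_add, mul_smul_comm, mul_smul_comm, mul_one, map_add, map_smul, map_smul, hz,
      smul_zero, add_zero, smul_eq_mul]
  -- the inverse of the trace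
  have hbs : Bd B a F fun x => (2 * s)⁻¹ • b x := hb.sm _
  have hζ1 : AE B a F (fun x => (C.T (z * η x) • (1 : D)) * ((2 * s)⁻¹ • b x)) fun _ => 1 := by
    refine (hζ.mul (AE.refl _) hζb hbs).trans ?_
    refine hb1.congr_left (Eventually.of_forall fun x => ?_)
    rw [e1, mul_smul, smul_mul_smul_comm, mul_inv_cancel₀ h2s, one_smul]
  obtain ⟨i1, i2, i3⟩ := hζ1.inv hbs
  have hne : ∀ᶠ x in F, C.T (z * η x) ≠ 0 := by
    filter_upwards [i1] with x hx h0
    exact hx (by rw [h0, zero_smul])
  -- the parameter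
  have hθ : AE B a F (fun x => C.T (z * C.adj (η x)) • (1 : D))
      fun x => (-s) • (C.T (z * η x) • (1 : D)) := by
    have q1 : AE B a F (fun x => C.T (z * C.adj (η x)) • (1 : D))
        fun x => C.T (z * C.adj ((2 * s) • y x + s • (1 : D))) • (1 : D) :=
      ((AE.refl _).mul (hη.adj C h2 hξ) hzc (hξ.adj C h2)).T C
    refine q1.trans (AE.symm ?_)
    have q2 : Nu B a F fun x => (2 * s) ^ 2 • ((C.N (y x) • (1 : D)) *
        (C.T (z * v x) • (1 : D))) := (Nu.bd_mul (hy.nrm C h2) hTv).sm _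
    have q3 := (hζ.sm (-s)).sub (AE.of_nu q2).symm
    have q4 : AE B a F (fun x => (-s) • (C.T (z * η x) • (1 : D))) fun x =>
        (-s) • (C.T (z * ((2 * s) • y x + s • (1 : D))) • (1 : D)) - (-1 : K) •
        ((2 * s) ^ 2 • ((C.N (y x) • (1 : D)) * (C.T (z * v x) • (1 : D)))) := by
      have q5 := (hζ.sm (-s)).sub ((AE.of_nu q2).symm.sm (-1 : K))
      refine q5.congr_left (Eventually.of_forall fun x => ?_)
      rw [smul_zero, sub_zero]
    refine q4.congr_right ?_
    filter_upwards [hvy] with x hx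
    rw [T_adj_xi C hz hx, smm, smul_smul, smul_smul, smul_smul, ← sub_smul]
    congr 1
    ring
  have hLb : ∀ x, lam C z (η x) • (1 : D) =
      (C.T (z * C.adj (η x)) • (1 : D)) * (C.T (z * η x) • (1 : D))⁻¹ := by
    intro x
    rw [inv_sm1, smm, lam, div_eq_mul_inv]
  have hL : AE B a F (fun x => lam C z (η x) • (1 : D)) fun _ => (-s) • (1 : D) := by
    simp only [hLb]
    refine (hθ.mul (AE.refl _) ?_ i2).congr_right ?_
    · exact ((hzc.mul hηb).T C).sm _
    · filter_upwards [i1] with x hx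
      rw [smul_mul_assoc, mul_inv_cancel₀ hx]
  have hL' : AE B a F (fun x => star (lam C z (η x)) • (1 : D)) fun _ => s • (1 : D) := by
    have q := hL.st hk
    refine (q.congr_left (Eventually.of_forall fun x => ?_)).congr_right
      (Eventually.of_forall fun x => ?_)
    · rw [hsm, star_one]
    · rw [hsm, star_one, star_neg, hs, neg_neg]
  -- the denominator
  have hd : AE B a F (fun x => η x + lam C z (η x) • (1 : D)) fun x => (2 * s) • y x := by
    refine (hη.add hL).congr_right (Eventually.of_forall fun x => ?_)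
    rw [neg_smul, add_neg_cancel_right]
  have hn : AE B a F (fun x => η x + star (lam C z (η x)) • (1 : D))
      fun x => (2 * s) • (y x + 1) := by
    refine (hη.add hL').congr_right (Eventually.of_forall fun x => ?_)
    rw [smul_add, mul_comm 2 s, mul_smul s 2 (1 : D), two_smul, smul_add, add_assoc]
  have hv1 : Bd B a F fun x => (2 * s)⁻¹ • (v x - 1) := (hv.sub (Bd.const 1)).sm _
  have hd1 : AE B a F (fun x => (η x + lam C z (η x) • (1 : D)) * ((2 * s)⁻¹ • (v x - 1)))
      fun _ => 1 := by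
    refine (hd.mul (AE.refl _) (hy.sm _) hv1).congr_right ?_
    filter_upwards [hvy] with x hx
    rw [smul_mul_smul_comm, mul_inv_cancel₀ h2s, one_smul, (adj_of_inv C hx).2.2]
  obtain ⟨j1, j2, j3⟩ := hd1.inv hv1
  refine ⟨hne, j1, ?_, i2⟩
  have hfin := hn.mul j3 ((hy.add (Bd.const 1)).sm _) hv1
  refine hfin.congr_right ?_
  filter_upwards [hvy] with x hx
  rw [smul_mul_smul_comm, mul_inv_cancel₀ h2s, one_smul, add_mul, one_mul,
    (adj_of_inv C hx).2.2, add_sub_cancel]

/-- `T (z y)` is not small if `T (z v^*)` is not small. -/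
theorem exists_b (h2 : (2 : K) ≠ 0) (hk : ∀ (c : k) (x : D), star (c • x) = c • star x)
    (hsm : ∀ (c : K) (x : D), star (c • x) = star c • star x)
    (hN : ∀ x, C.N (star x) = star (C.N x)) {z : D} (hz : C.T z = 0)
    {v y n : X → D} (hv : Bd B a F v) (hvv : AE B a F (fun x => star (v x) * v x) fun _ => 1)
    (hvy : ∀ᶠ x in F, (v x - 1) * y x = 1)
    (hTv : Nu B a F fun x => C.T (z * v x) • (1 : D)) (hn : Bd B a F n)
    (hn1 : AE B a F (fun x => (C.T (z * star (v x)) • (1 : D)) * n x) fun _ => 1) :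
    ∃ b : X → D, Bd B a F b ∧
      AE B a F (fun x => (C.T (z * y x) • (1 : D)) * b x) fun _ => 1 := by
  have hvs := AE.swap hk hv hvv
  have hsv := hv.st hk
  have hzc : Bd B a F fun _ => z := Bd.const z
  have hNv : Bd B a F fun x => C.N (v x) • (1 : D) := hv.nrm C h2
  have hNs : Bd B a F fun x => star (C.N (v x)) • (1 : D) := by
    refine (hNv.st hk).congr (Eventually.of_forall fun x => ?_)
    rw [hsm, star_one]
  refine ⟨fun x => (C.N (v x - 1) • (1 : D)) * ((star (C.N (v x)) • (1 : D)) * n x),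
    ((hv.sub (Bd.const 1)).nrm C h2).mul (hNs.mul hn), ?_⟩
  -- the trace of `z v^#`
  have h1 : AE B a F (fun x => C.adj (v x)) fun x => (C.N (v x) • (1 : D)) * star (v x) := by
    have q := (AE.refl (B := B) (a := a) (F := F) fun x => C.adj (v x)).mul hvs.symm
      (hv.adj C h2) (hv.mul hsv)
    refine (q.congr_left (Eventually.of_forall fun x => ?_)).congr_right
      (Eventually.of_forall fun x => ?_)
    · rw [mul_one]
    · rw [← mul_assoc, C.adj_mul]
  have h3 : AE B a F (fun x => C.T (z * C.adj (v x)) • (1 : D))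
      fun x => (C.N (v x) • (1 : D)) * (C.T (z * star (v x)) • (1 : D)) := by
    refine (((AE.refl _).mul h1 hzc (hNv.mul hsv)).T C).congr_right
      (Eventually.of_forall fun x => ?_)
    rw [smul_one_mul, mul_smul_comm, map_smul, smm, smul_eq_mul]
  have h4 : AE B a F (fun x => (C.T (z * C.adj (v x)) + C.T (z * v x)) • (1 : D))
      fun x => (C.N (v x) • (1 : D)) * (C.T (z * star (v x)) • (1 : D)) := by
    refine ((h3.add (AE.of_nu hTv)).congr_right (Eventually.of_forall fun x => ?_)).congr_left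
      (Eventually.of_forall fun x => ?_)
    · rw [add_zero]
    · rw [add_smul]
  -- the norm of `v v^*`
  have h5 : AE B a F (fun x => (C.N (v x) • (1 : D)) * (star (C.N (v x)) • (1 : D)))
      fun _ => 1 := by
    refine ((hvs.nrm C h2 (Bd.const 1)).congr_left (Eventually.of_forall fun x => ?_)).congr_right
      (Eventually.of_forall fun x => ?_)
    · rw [C.N_mul, hN, smm]
    · rw [C.N_one, one_smul]
  have hT : Bd B a F fun x => C.T (z * star (v x)) • (1 : D) := (hzc.mul hsv).T C
  have h6 := h4.mul (AE.refl fun x => (star (C.N (v x)) • (1 : D)) * n x) (hNv.mul hT)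
    (hNs.mul hn)
  have h7 := h5.mul hn1 (Bd.const 1) (Bd.const 1)
  have h8 : AE B a F (fun x => (C.T (z * C.adj (v x)) + C.T (z * v x)) • (1 : D) *
      ((star (C.N (v x)) • (1 : D)) * n x)) fun _ => 1 := by
    refine (h6.trans ?_)
    refine (h7.congr_left (Eventually.of_forall fun x => ?_)).congr_right
      (Eventually.of_forall fun x => ?_)
    · simp only [smul_mul_assoc, smul_smul, one_mul]
      congr 1
      ring
    · rw [mul_one]
  refine h8.congr_left ?_
  filter_upwards [hvy] with x hx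
  rw [← T_y C hz hx, ← smm, mul_assoc]

/-- `T (z y)` is not small if `T (z v v)` is not small. -/
theorem exists_b2 (h2 : (2 : K) ≠ 0) {z : D} (hz : C.T z = 0) {v y n : X → D} (hv : Bd B a F v)
    (hvy : ∀ᶠ x in F, (v x - 1) * y x = 1)
    (hTv : Nu B a F fun x => C.T (z * v x) • (1 : D)) (hn : Bd B a F n)
    (hn1 : AE B a F (fun x => (C.T (z * (v x * v x)) • (1 : D)) * n x) fun _ => 1) :
    ∃ b : X → D, Bd B a F b ∧
      AE B a F (fun x => (C.T (z * y x) • (1 : D)) * b x) fun _ => 1 := by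
  have hzc : Bd B a F fun _ => z := Bd.const z
  refine ⟨fun x => (C.N (v x - 1) • (1 : D)) * n x, ((hv.sub (Bd.const 1)).nrm C h2).mul hn, ?_⟩
  have hTb : Bd B a F fun x => ((1 : K) - C.T (v x)) • (1 : D) := by
    refine ((Bd.const 1).sub (hv.T C)).congr (Eventually.of_forall fun x => ?_)
    rw [sub_smul, one_smul]
  have q1 : Nu B a F fun x => (((1 : K) - C.T (v x)) • (1 : D)) *
      (C.T (z * v x) • (1 : D)) * n x := Nu.mul_bd (Nu.bd_mul hTb hTv) hn
  have q2 := hn1.add (AE.of_nu q1)
  refine (q2.congr_left ?_).congr_right (Eventually.of_forall fun x => add_zero _)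
  filter_upwards [hvy] with x hx
  have h3 := T_y C hz hx
  have h4 : C.T (z * C.adj (v x)) = C.T (z * (v x * v x)) - C.T (v x) * C.T (z * v x) := by
    rw [C.adj_eq, mul_add, mul_sub, mul_smul_comm, mul_smul_comm, mul_one, map_add, map_sub,
      map_smul, map_smul, hz, smul_zero, add_zero, smul_eq_mul]
  have e : (C.T (z * y x) • (1 : D)) * ((C.N (v x - 1) • (1 : D)) * n x) =
      ((C.T (z * y x) * C.N (v x - 1)) • (1 : D)) * n x := by rw [← mul_assoc, smm]
  rw [e, h3, h4, smm, ← add_mul, ← add_smul]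
  congr 2
  ring

end Vale.Agent.P011.H339
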