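import Vale.Agent.P011.H339.N1

/-!
**Uniform approximation by the parametrisation.**
-/

open Module Filter Topology

set_option linter.unusedSectionVars false
set_option linter.unusedVariables false

namespace Vale.Agent.P011.H339

open Vale.Agent.P011.H182 Vale.Agent.P011.H775 Vale.Agent.P011.H948

theorem exists_interp {K : Type} [Field K] {μ : Fin 4 → K} (hμ : Function.Injective μ) :
    ∃ c : Fin 4 → K, ∑ i, c i = 1 ∧ ∑ i, c i * μ i = 0 ∧ ∑ i, c i * μ i ^ 2 = 0 ∧
      ∑ i, c i * μ i ^ 3 = 0 := by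
  have hdet : (Matrix.vandermonde μ).det ≠ 0 := Matrix.det_vandermonde_ne_zero_iff.mpr hμ
  have hu : IsUnit (Matrix.vandermonde μ).det := isUnit_iff_ne_zero.mpr hdet
  obtain ⟨c, hc⟩ : ∃ c : Fin 4 → K, Matrix.vecMul c (Matrix.vandermonde μ) = Pi.single 0 1 :=
    ⟨Matrix.vecMul (Pi.single 0 1) (Matrix.vandermonde μ)⁻¹, by
      rw [Matrix.vecMul_vecMul, Matrix.nonsing_inv_mul _ hu, Matrix.vecMul_one]⟩
  have h : ∀ j : Fin 4, ∑ i, c i * μ i ^ (j : ℕ) = (Pi.single 0 1 : Fin 4 → K) j := by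
    intro j
    rw [← hc]
    rfl
  refine ⟨c, ?_, ?_, ?_, ?_⟩
  · simpa using h 0
  · simpa using h 1
  · simpa using h 2
  · simpa using h 3

variable {k K D : Type} [Field k] [Field K] [StarRing K] [DivisionRing D] [StarRing D]
  [Algebra k K] [Algebra k D] [Algebra K D] [IsScalarTower k K D]
  {N : ℕ} (B : Basis (Fin N) k D) (a : AbsoluteValue k ℝ) (C : Cub K D)

theorem N_mu (v : D) (c : K) :
    C.N (c • v - 1) = C.N v * c ^ 3 - C.S v * c ^ 2 + C.T v * c - 1 := by
  have h := N_sub_smul_one C (c • v) 1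
  rw [one_smul, C.N_smul, C.S_smul, map_smul, smul_eq_mul] at h
  rw [h]
  ring

theorem tendsto_inv_nat {ε : ℝ} (hε : 0 < ε) : ∀ᶠ j : ℕ in atTop, 1 / ((j : ℝ) + 1) < ε :=
  (tendsto_one_div_add_atTop_nhds_zero_nat (𝕜 := ℝ)).eventually_lt_const hε

/-- One of four scalars keeps `μ v - 1` away from the singular elements. -/
theorem exists_mu (h2 : (2 : K) ≠ 0) (hk : ∀ (c : k) (x : D), star (c • x) = c • star x)
    (hsm : ∀ (c : K) (x : D), star (c • x) = star c • star x)
    (hN : ∀ x, C.N (star x) = star (C.N x)) {s : K} (hs : star s = -s) (hs0 : s ≠ 0)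
    (hfix : ∀ c : K, star c = c → ∃ e : k, algebraMap k K e = c)
    {μ : Fin 4 → K} (hμ : Function.Injective μ) (hμ1 : ∀ i, μ i * star (μ i) = 1) (R : ℝ) :
    ∃ ε : ℝ, 0 < ε ∧ ∀ v : D, na B a v ≤ R → na B a (star v * v - 1) < ε →
      ∃ i, ∃ y : D, (μ i • v - 1) * y = 1 ∧ na B a y ≤ 1 / ε := by
  by_contra hcon
  push Not at hcon
  have hpos : ∀ j : ℕ, (0 : ℝ) < 1 / ((j : ℝ) + 1) := fun j => by positivity
  choose v hv1 hv2 hv3 using fun j : ℕ => hcon (1 / ((j : ℝ) + 1)) (hpos j)
  have hv : Bd B a atTop v := Bd.of_le hv1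
  have hvv : AE B a atTop (fun j => star (v j) * v j) fun _ => 1 := by
    intro η hη
    filter_upwards [tendsto_inv_nat hη] with j hj
    exact (hv2 j).trans hj
  have hvs := AE.swap hk hv hvv
  have hsv := hv.st hk
  -- the norms tend to zero
  have key : ∀ i, Nu B a atTop fun j => C.N (μ i • v j - 1) • (1 : D) := by
    intro i
    have hp : Bd B a atTop fun j => μ i • v j - 1 := (hv.sm _).sub (Bd.const 1)
    have hNp : Bd B a atTop fun j => C.N (μ i • v j - 1) • (1 : D) := hp.nrm C h2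
    have hNps : Bd B a atTop fun j => star (C.N (μ i • v j - 1)) • (1 : D) := by
      refine (hNp.st hk).congr (Eventually.of_forall fun x => ?_)
      rw [hsm, star_one]
    have hG := hNps.mul (hp.adj C h2)
    obtain ⟨M, hM⟩ := hG
    have ht : ∀ j, ∃ e : k, algebraMap k K e =
        C.N (μ i • v j - 1) * star (C.N (μ i • v j - 1)) := fun j =>
      hfix _ (by rw [star_mul, star_star])
    choose t ht using ht
    have hnorm : Nu B a atTop fun j =>
        (C.N (μ i • v j - 1) * star (C.N (μ i • v j - 1))) • (1 : D) := by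
      intro η hη
      have h10 := na_pos B a (one_ne_zero (α := D))
      have hη' : 0 < η / (na B a (1 : D) * (|M| + 1)) := by positivity
      filter_upwards [hM, tendsto_inv_nat hη'] with j h3 h4
      rw [← ht, IsScalarTower.algebraMap_smul, na_smul]
      by_cases hp0 : μ i • v j - 1 = 0
      · have h5 : t j = 0 := by
          have h6 := ht j
          rw [hp0, C.N_zero, zero_mul] at h6
          exact (map_eq_zero _).mp h6
        rw [h5, map_zero, zero_mul]
        exact hη
      · have h5 := hv3 j i _ (mul_inv_cancel₀ hp0)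
        rw [one_div_one_div] at h5
        have h6 : t j • (μ i • v j - 1)⁻¹ =
            (star (C.N (μ i • v j - 1)) • (1 : D)) * C.adj (μ i • v j - 1) := by
          rw [C.inv_eq hp0, ← IsScalarTower.algebraMap_smul K (t j), ht, smul_smul,
            smul_one_mul]
          congr 1
          have h7 := C.N_ne_zero hp0
          field_simp
        have h7 := congrArg (na B a) h6
        rw [na_smul] at h7
        rw [← h7] at h3
        have h8 : 0 ≤ a (t j) := a.nonneg _
        have h9 : a (t j) * ((j : ℝ) + 1) ≤ |M| + 1 :=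
          (mul_le_mul_of_nonneg_left h5.le h8).trans (h3.trans (by linarith [le_abs_self M]))
        have hj : (0 : ℝ) < (j : ℝ) + 1 := by positivity
        have h11 : a (t j) ≤ (|M| + 1) * (1 / ((j : ℝ) + 1)) := by
          rw [mul_one_div, le_div_iff₀ hj]
          exact h9
        have h12 : 0 < |M| + 1 := by positivity
        rw [lt_div_iff₀ (by positivity)] at h4
        calc a (t j) * na B a 1 ≤ (|M| + 1) * (1 / ((j : ℝ) + 1)) * na B a 1 :=
              mul_le_mul_of_nonneg_right h11 h10.le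
          _ = 1 / ((j : ℝ) + 1) * (na B a 1 * (|M| + 1)) := by ring
          _ < η := h4
    have hsq : Nu B a atTop fun j =>
        (C.N (μ i • v j - 1) * C.N (μ i • v j - 1)) • (1 : D) := by
      have q1 : AE B a atTop (fun j => v j * star (v j) - μ i • v j) fun j => 1 - μ i • v j :=
        hvs.sub (AE.refl _)
      have q2 := q1.nrm C h2 ((Bd.const 1).sub (hv.sm _))
      have q3 : AE B a atTop
          (fun j => (C.N (μ i • v j) * star (C.N (μ i • v j - 1))) • (1 : D))
          fun j => (-C.N (μ i • v j - 1)) • (1 : D) := by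
        refine (q2.congr_left (Eventually.of_forall fun j => ?_)).congr_right
          (Eventually.of_forall fun j => ?_)
        · rw [← hN, ← C.N_mul]
          congr 2
          rw [star_sub, star_one, mul_sub, mul_one, hsm, smul_mul_smul_comm, hμ1, one_smul]
        · rw [← C.N_neg]
          congr 2
          abel
      have q4 := (q3.mul (AE.refl fun j => C.N (μ i • v j - 1) • (1 : D)) ?_ hNp)
      · have q5 : Nu B a atTop fun j => (C.N (μ i • v j) • (1 : D)) *
            ((C.N (μ i • v j - 1) * star (C.N (μ i • v j - 1))) • (1 : D)) :=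
          Nu.bd_mul ((hv.sm _).nrm C h2) hnorm
        have q6 := (q4.symm.congr_right (g' := fun j => (C.N (μ i • v j) • (1 : D)) *
            ((C.N (μ i • v j - 1) * star (C.N (μ i • v j - 1))) • (1 : D)))
            (Eventually.of_forall fun j => by
              simp only [smm]
              congr 1
              ring)).nu q5
        refine q6.neg.congr (Eventually.of_forall fun j => ?_)
        rw [smm, ← neg_smul]
        congr 1
        ring
      · simp only [neg_smul]
        exact hNp.neg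
    exact Nu.of_norm hk hsm h2 hs hs0 hfix hsq hnorm
  -- interpolation
  obtain ⟨c, c0, c1, c2, c3⟩ := exists_interp hμ
  have hsum : Nu B a atTop fun j : ℕ => ∑ i, c i • (C.N (μ i • v j - 1) • (1 : D)) := by
    simp only [Fin.sum_univ_four]
    exact ((((key 0).sm _).add ((key 1).sm _)).add ((key 2).sm _)).add ((key 3).sm _)
  have hone : Nu B a atTop fun _ : ℕ => (-1 : D) := by
    refine hsum.congr (Eventually.of_forall fun j => ?_)
    simp only [smul_smul, ← Finset.sum_smul]
    have h3 : ∑ i, c i * C.N (μ i • v j - 1) = -1 := by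
      simp only [N_mu]
      have h4 : ∀ i, c i * (C.N (v j) * μ i ^ 3 - C.S (v j) * μ i ^ 2 + C.T (v j) * μ i - 1) =
          C.N (v j) * (c i * μ i ^ 3) - C.S (v j) * (c i * μ i ^ 2) +
            C.T (v j) * (c i * μ i) - c i := fun i => by ring
      simp only [h4, Finset.sum_sub_distrib, Finset.sum_add_distrib, ← Finset.mul_sum, c0, c1, c2,
        c3]
      ring
    rw [h3, neg_smul, one_smul]
  exact not_nu_const (neg_ne_zero.mpr one_ne_zero) hone

/-- From sequences to balls. -/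
theorem pairs (h2 : (2 : K) ≠ 0) (hk : ∀ (c : k) (x : D), star (c • x) = c • star x)
    (hsm : ∀ (c : K) (x : D), star (c • x) = star c • star x) {s : K} (hs : star s = -s)
    (hs0 : s ≠ 0) {z : D} (hz : C.T z = 0) {v y b ξ : ℕ → D} (hv : Bd B a atTop v)
    (hy : Bd B a atTop y) (hvy : ∀ᶠ j in atTop, (v j - 1) * y j = 1)
    (hTv : Nu B a atTop fun j => C.T (z * v j) • (1 : D)) (hb : Bd B a atTop b)
    (hb1 : AE B a atTop (fun j => (C.T (z * y j) • (1 : D)) * b j) fun _ => 1)
    (hξ : AE B a atTop ξ fun j => (2 * s) • y j + s • (1 : D)) {η : ℝ} (hη : 0 < η) :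
    ∃ γ : ℝ, 0 < γ ∧ ∀ᶠ j in atTop, ∀ ζ : D, na B a (ζ - ξ j) < γ → C.T (z * ζ) ≠ 0 ∧
      ζ + lam C z ζ • (1 : D) ≠ 0 ∧ na B a (Vp C z ζ - v j) < η := by
  obtain ⟨φ, hφ⟩ : ∃ φ : ℕ × D → ℕ × ℝ, φ = fun p => (p.1, na B a (p.2 - ξ p.1)) := ⟨_, rfl⟩
  obtain ⟨G, hG⟩ : ∃ G : Filter (ℕ × D), G = Filter.comap φ (atTop ×ˢ 𝓝 (0 : ℝ)) := ⟨_, rfl⟩
  have hG0 : Tendsto φ G (atTop ×ˢ 𝓝 (0 : ℝ)) := by
    rw [hG]
    exact tendsto_comap
  have hG1 : Tendsto (Prod.fst : ℕ × D → ℕ) G atTop := by
    have h := hG0.fst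
    rw [hφ] at h
    exact h
  have hG2 : Tendsto (fun p : ℕ × D => na B a (p.2 - ξ p.1)) G (𝓝 0) := by
    have h := hG0.snd
    rw [hφ] at h
    exact h
  have hη1 : AE B a G (Prod.snd : ℕ × D → D) fun p => ξ p.1 := fun η' hη' =>
    hG2.eventually_lt_const hη'
  have hη2 := hη1.trans (AE.comp hG1 hξ)
  have gv := Bd.comp hG1 hv
  have gy := Bd.comp hG1 hy
  have gb := Bd.comp hG1 hb
  have gvy := hG1.eventually hvy
  have gT := Nu.comp hG1 hTv
  have gb1 := AE.comp hG1 hb1
  have r := cay_asym C h2 hk hsm hs hs0 hz gv gy gvy gT gb gb1 hη2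
  obtain ⟨r1, r2, r3, -⟩ := r
  have r5 := r1.and (r2.and (r3 η hη))
  rw [hG, eventually_comap, eventually_prod_iff] at r5
  obtain ⟨pa, ha, pb, hb', hpp⟩ := r5
  obtain ⟨γ, hγ, hball⟩ := Metric.eventually_nhds_iff.mp hb'
  refine ⟨γ, hγ, ?_⟩
  filter_upwards [ha] with j hj ζ hζ
  exact hpp hj (hball (y := na B a (ζ - ξ j)) (by
    rw [Real.dist_eq, sub_zero, abs_of_nonneg (na_nonneg _ _ _)]
    exact hζ)) (j, ζ) (by rw [hφ])

/-- **Uniform approximation of local points by the parametrisation.** -/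
theorem n1_unif (h2 : (2 : K) ≠ 0) (hk : ∀ (c : k) (x : D), star (c • x) = c • star x)
    (hsm : ∀ (c : K) (x : D), star (c • x) = star c • star x)
    (hN : ∀ x, C.N (star x) = star (C.N x)) {s : K} (hs : star s = -s) (hs0 : s ≠ 0)
    (hfix : ∀ c : K, star c = c → ∃ e : k, algebraMap k K e = c)
    {μ : Fin 4 → K} (hμ : Function.Injective μ) (hμ1 : ∀ i, μ i * star (μ i) = 1)
    {x u : D} (hu : u * star u = 1) (hT : C.T ((x - 1) * u) = 0) :
    ∃ M : ℝ, ∀ R η : ℝ, 0 < η → ∃ δ : ℝ, 0 < δ ∧ ∀ w n : D, na B a w ≤ R → na B a n ≤ R →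
      C.T ((x - 1) * u * star w * u) • n = 1 → na B a (star w * w - 1) < δ →
      na B a (C.T ((x - 1) * w) • (1 : D)) < δ →
      ∃ m : K, m * star m = 1 ∧ na B a (m • (1 : D)) ≤ M ∧ ∃ ξ : D, star ξ = ξ ∧
        ∃ γ : ℝ, 0 < γ ∧ ∀ ζ : D, na B a (ζ - ξ) < γ → C.T ((x - 1) * u * ζ) ≠ 0 ∧
          ζ + lam C ((x - 1) * u) ζ • (1 : D) ≠ 0 ∧
          na B a (u * Vp C ((x - 1) * u) ζ - m • w) < η := by
  refine ⟨∑ i, na B a (μ i • (1 : D)), fun R η hη => ?_⟩
  have hMi : ∀ i, na B a (μ i • (1 : D)) ≤ ∑ i, na B a (μ i • (1 : D)) := fun i =>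
    Finset.single_le_sum (f := fun i => na B a (μ i • (1 : D))) (fun _ _ => na_nonneg _ _ _)
      (Finset.mem_univ i)
  by_contra hcon
  push Not at hcon
  have hpos : ∀ j : ℕ, (0 : ℝ) < 1 / ((j : ℝ) + 1) := fun j => by positivity
  choose w n hw hn hF hww hTw hbad using fun j : ℕ => hcon (1 / ((j : ℝ) + 1)) (hpos j)
  set z := (x - 1) * u with hz
  have hsu : star u * u = 1 := by
    have h0 : u ≠ 0 := left_ne_zero_of_mul_eq_one hu
    rw [← inv_eq_of_mul_eq_one_right hu, inv_mul_cancel₀ h0]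
  obtain ⟨C1, hC1, hm⟩ := na_mul B a
  obtain ⟨ε, hε, hmu⟩ := exists_mu B a C h2 hk hsm hN hs hs0 hfix hμ hμ1
    (C1 * na B a (star u) * R)
  have hvw : ∀ j, star (star u * w j) * (star u * w j) = star (w j) * w j := by
    intro j
    rw [star_mul, star_star, mul_assoc, ← mul_assoc u, hu, one_mul]
  have hex : ∀ j : ℕ, ∃ i, ∃ y : D, 1 / ((j : ℝ) + 1) < ε →
      ((μ i • (star u * w j) - 1) * y = 1 ∧ na B a y ≤ 1 / ε) := by
    intro j
    by_cases hj : 1 / ((j : ℝ) + 1) < ε
    · obtain ⟨i, y, h3, h4⟩ := hmu (star u * w j) ((hm _ _).trans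
        (mul_le_mul_of_nonneg_left (hw j) (mul_nonneg (by linarith) (na_nonneg _ _ _))))
        (by rw [hvw]; exact (hww j).trans hj)
      exact ⟨i, y, fun _ => ⟨h3, h4⟩⟩
    · exact ⟨0, 0, fun h => absurd h hj⟩
  choose i y hiy using hex
  have hev := tendsto_inv_nat hε
  -- the sequences
  have bw : Bd B a atTop w := Bd.of_le hw
  have bn : Bd B a atTop n := Bd.of_le hn
  have by' : Bd B a atTop y := ⟨1 / ε, by filter_upwards [hev] with j hj; exact (hiy j hj).2⟩
  have bμ : Bd B a atTop fun j => μ (i j) • (1 : D) := Bd.of_le fun j => hMi (i j)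
  have bμs : Bd B a atTop fun j => star (μ (i j)) • (1 : D) := by
    refine (bμ.st hk).congr (Eventually.of_forall fun j => ?_)
    rw [hsm, star_one]
  obtain ⟨v, hvdef⟩ : ∃ v : ℕ → D, v = fun j => μ (i j) • (star u * w j) := ⟨_, rfl⟩
  have bv : Bd B a atTop v := by
    rw [hvdef]
    refine (bμ.mul ((Bd.const (star u)).mul bw)).congr (Eventually.of_forall fun j => ?_)
    rw [smul_one_mul]
  have hvv : AE B a atTop (fun j => star (v j) * v j) fun _ => 1 := by
    intro η' hη'
    filter_upwards [tendsto_inv_nat hη'] with j hj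
    rw [hvdef]
    dsimp only
    rw [hsm, smul_mul_smul_comm, mul_comm (star (μ (i j))), hμ1, one_smul, hvw]
    exact (hww j).trans hj
  have hvy : ∀ᶠ j in atTop, (v j - 1) * y j = 1 := by
    filter_upwards [hev] with j hj
    rw [hvdef]
    exact (hiy j hj).1
  have hTv : Nu B a atTop fun j => C.T (z * v j) • (1 : D) := by
    have q1 : Nu B a atTop fun j => C.T ((x - 1) * w j) • (1 : D) := by
      intro η' hη'
      filter_upwards [tendsto_inv_nat hη'] with j hj
      exact (hTw j).trans hj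
    refine (Nu.bd_mul bμ q1).congr (Eventually.of_forall fun j => ?_)
    rw [hvdef, smm]
    dsimp only
    rw [mul_smul_comm, map_smul, smul_eq_mul, hz]
    congr 3
    rw [mul_assoc, ← mul_assoc u, hu, one_mul]
  have bn' : Bd B a atTop fun j => (μ (i j) • (1 : D)) * n j := bμ.mul bn
  have hn1 : AE B a atTop (fun j => (C.T (z * star (v j)) • (1 : D)) *
      ((μ (i j) • (1 : D)) * n j)) fun _ => 1 := by
    refine AE.of_eq (Eventually.of_forall fun j => ?_)
    rw [hvdef]
    dsimp only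
    rw [hsm, star_mul, star_star, mul_smul_comm, map_smul, smul_eq_mul, ← mul_assoc z, ← mul_assoc,
      smm, mul_right_comm, mul_comm (star _), hμ1, one_mul, smul_one_mul]
    exact hF j
  obtain ⟨b, bb, hb1⟩ := exists_b C h2 hk hsm hN hT bv hvv hvy hTv bn' hn1
  -- the symmetric elements
  obtain ⟨ξ, hξdef⟩ : ∃ ξ : ℕ → D, ξ = fun j => (2⁻¹ : K) • (((2 * s) • y j + s • (1 : D)) +
    star ((2 * s) • y j + s • (1 : D))) := ⟨_, rfl⟩
  have h2s : star (2 : K) = 2 := star_ofNat 2
  have hξs : ∀ j, star (ξ j) = ξ j := by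
    intro j
    rw [hξdef]
    dsimp only
    rw [hsm, star_inv₀, h2s, star_add, star_star, add_comm]
  have hξa : AE B a atTop ξ fun j => (2 * s) • y j + s • (1 : D) := by
    have q1 : Nu B a atTop fun j => star (y j) * (star (v j) * v j - 1) * y j :=
      Nu.mul_bd (Nu.bd_mul (by'.st hk) hvv) by'
    have q2 : Nu B a atTop fun j => (-s) • (star (y j) * (star (v j) * v j - 1) * y j) :=
      q1.sm _
    refine q2.congr ?_
    filter_upwards [hvy] with j hj
    have h3 : y j * (v j - 1) = 1 := (adj_of_inv C hj).2.2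
    have h4 : star (y j) * star (v j - 1) = 1 := by rw [← star_mul, hj, star_one]
    have h5 : star (v j) * v j - 1 = star (v j - 1) + (v j - 1) +
        star (v j - 1) * (v j - 1) := by
      rw [star_sub, star_one]
      noncomm_ring
    have h6 : star (y j) * (star (v j) * v j - 1) * y j = y j + star (y j) + 1 := by
      rw [h5, mul_add, mul_add, add_mul, add_mul, ← mul_assoc (star (y j)), h4, one_mul, one_mul,
        mul_assoc (star (y j)), hj, mul_one]
    rw [h6, hξdef]
    dsimp only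
    rw [star_add, hsm, hsm, star_mul', h2s, hs, star_one]
    apply smul_right_injective D h2
    dsimp only
    rw [smul_sub (2 : K) ((2⁻¹ : K) • _), smul_smul 2 (2⁻¹ : K), mul_inv_cancel₀ h2, one_smul]
    module
  have hCu : 0 < C1 * (na B a u + 1) := by
    have := na_nonneg B a u
    positivity
  obtain ⟨γ, hγ, hfin⟩ := pairs B a C h2 hk hsm hs hs0 hT bv by' hvy hTv bb hb1 hξa
    (div_pos hη hCu)
  obtain ⟨j, hj⟩ := hfin.exists
  obtain ⟨ζ, hζ1, hζ2⟩ := hbad j (μ (i j)) (hμ1 _) (hMi _) (ξ j) (hξs j) γ hγ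
  obtain ⟨k1, k2, k3⟩ := hj ζ hζ1
  refine absurd (hζ2 k1 k2) (not_le.mpr ?_)
  have h4 : u * v j = μ (i j) • w j := by
    rw [hvdef]
    dsimp only
    rw [mul_smul_comm, ← mul_assoc, hu, one_mul]
  rw [← h4, ← mul_sub]
  refine (hm _ _).trans_lt ?_
  rw [lt_div_iff₀ hCu] at k3
  have k4 := na_nonneg B a (Vp C z ζ - v j)
  have k5 := na_nonneg B a u
  nlinarith

end Vale.Agent.P011.H339
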